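import Crest.Agent.X262.Tree87.P2

/-!
# Row 262, road B, ENDS-RK (helper82), part 1: the degree of a quotient bundle on `P^1`

* `deg_le_of_ker` : sections of the kernel of a surjection `⊕ O(d v) → ⊕ O(α i)` which are
  generically a basis and dependent at infinity bound `∑ α`;
* `Split.deg_le`  : the same for the range of a polynomial matrix.
-/

set_option autoImplicit false
set_option linter.unusedSectionVars false

namespace Crest.Agent.X262.EndsRk

open Polynomial Matrix Crest.Agent.X262.Tree87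

variable {k : Type*} [Field k] {ι κ μ : Type*} [Fintype ι] [Fintype κ] [Fintype μ]

theorem ev_det' [DecidableEq κ] (A : Matrix κ κ k[X]) (a b : κ → ℤ) (h : DM a b A) :
    DL (∑ i, a i - ∑ j, b j) A.det ∧ ∀ p,
      ev (∑ i, a i - ∑ j, b j) p A.det = (evM a b p A).det := by
  let ε := (Fintype.equivFin κ).symm
  have h1 := ev_det (A.submatrix ε ε) (fun i => a (ε i)) (fun i => -b (ε i))
    fun i j => by simpa only [sub_eq_add_neg, submatrix_apply] using h (ε i) (ε j)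
  rw [det_submatrix_equiv_self, Finset.sum_neg_distrib, ε.sum_comp a, ε.sum_comp b,
    ← sub_eq_add_neg] at h1
  refine ⟨h1.1, fun p => (h1.2 p).trans ?_⟩
  rw [← det_submatrix_equiv_self ε (evM a b p A)]
  simp only [← sub_eq_add_neg]
  rfl

theorem evM_mul {a : κ → ℤ} {b : ι → ℤ} {c : μ → ℤ} {A : Matrix κ ι k[X]} {B : Matrix ι μ k[X]}
    (hA : DM a b A) (hB : DM b c B) :
    DM a c (A * B) ∧ ∀ p, evM a c p (A * B) = evM a b p A * evM b c p B := by
  have h1 : ∀ i v j, a i - c j = a i - b v + (b v - c j) := fun i v j => by ring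
  refine ⟨fun i j => DL.sum fun v _ => h1 i v j ▸ (hA i v).mul (hB v j), fun p => ?_⟩
  ext i j
  simp only [evM, mul_apply, map_sum]
  exact Finset.sum_congr rfl fun v _ => h1 i v j ▸ ev_mul (hA i v) (hB v j) p

theorem exists_compl [DecidableEq κ] [DecidableEq μ] (ε : κ ⊕ μ ≃ ι) {Q : Matrix μ ι k}
    (h : Function.Surjective Q.mulVecLin) :
    ∃ Y : Matrix κ ι k, ((fromRows Y Q).submatrix id ε).det ≠ 0 := by
  classical
  have h1 := Q.mulVecLin.finrank_range_add_finrank_ker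
  rw [LinearMap.range_eq_top.2 h, finrank_top, Module.finrank_fintype_fun_eq_card,
    Module.finrank_fintype_fun_eq_card, ← Fintype.card_congr ε, Fintype.card_sum] at h1
  obtain ⟨g, hg⟩ := (LinearMap.ker Q.mulVecLin).subtype.exists_leftInverse_of_injective
    (Submodule.ker_subtype _)
  let e : LinearMap.ker Q.mulVecLin ≃ₗ[k] (κ → k) := LinearEquiv.ofFinrankEq _ _ (by
    rw [Module.finrank_fintype_fun_eq_card]
    omega)
  refine ⟨LinearMap.toMatrix' (e.toLinearMap ∘ₗ g), fun h2 => ?_⟩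
  obtain ⟨v, hv, h3⟩ := exists_mulVec_eq_zero_iff.2 h2
  rw [submatrix_mulVec_equiv, fromRows_mulVec] at h3
  have h4 : v ∘ ε.symm ∈ LinearMap.ker Q.mulVecLin := funext fun i => congrFun h3 (.inr i)
  have h5 : e (g (v ∘ ε.symm)) = 0 := by
    rw [← LinearEquiv.coe_coe, ← LinearMap.comp_apply, ← LinearMap.toMatrix'_mulVec]
    exact funext fun i => congrFun h3 (.inl i)
  have h6 := LinearMap.congr_fun hg ⟨_, h4⟩
  rw [LinearMap.comp_apply, Submodule.subtype_apply, e.map_eq_zero_iff.1 h5] at h6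
  exact hv (funext fun i => by simpa using (congrFun (congrArg Subtype.val h6) (ε i)).symm)

theorem natDegree_le_of [IsAlgClosed k] {a b : k[X]} (ha : a ≠ 0) (hb : b ≠ 0)
    (h : ∀ z : k, ∃ w : k[X], w.eval z ≠ 0 ∧ b ∣ w * a) : b.natDegree ≤ a.natDegree := by
  classical
  obtain ⟨a', b', h1, h2, h3⟩ := extract_gcd a b
  have h4 : gcd a b ≠ 0 := left_ne_zero_of_mul (h1 ▸ ha)
  have h5 : b'.degree = 0 := by
    by_contra h5
    obtain ⟨z, hz⟩ := IsAlgClosed.exists_root b' h5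
    obtain ⟨w, h6, h7⟩ := h z
    rw [h2, show w * a = gcd a b * (w * a') by rw [mul_left_comm, ← h1],
      mul_dvd_mul_iff_left h4] at h7
    obtain ⟨q, rfl⟩ := ((gcd_isUnit_iff _ _).1 h3).symm.dvd_of_dvd_mul_right h7
    exact h6 (by rw [eval_mul, hz.eq_zero, zero_mul])
  rw [h2, natDegree_mul h4 (right_ne_zero_of_mul (h2 ▸ hb)), natDegree_eq_of_degree_eq_some h5]
  exact natDegree_le_of_dvd (gcd_dvd_left a b) ha

theorem exists_right [DecidableEq μ] {Q : Matrix μ ι k[X]} {α : μ → ℤ} {d : ι → ℤ}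
    (hs : Function.Surjective (evM α d (some 0) Q).mulVecLin) :
    ∃ U : Matrix ι μ k[X], (Q * U).det ≠ 0 := by
  classical
  obtain ⟨g, hg⟩ := (evM α d (some 0) Q).mulVecLin.exists_rightInverse_of_surjective
    (LinearMap.range_eq_top.2 hs)
  refine ⟨(LinearMap.toMatrix' g).map C, fun h => ?_⟩
  have h1 := congrArg (evalRingHom 0) h
  have h2 : (evalRingHom 0).mapMatrix (Q * (LinearMap.toMatrix' g).map C) =
      evM α d (some 0) Q * LinearMap.toMatrix' g := by
    ext i j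
    simp [mul_apply, evM, eval_finsetSum]
  rw [RingHom.map_det, h2, ← LinearMap.toMatrix'_toLin' (evM α d (some 0) Q),
    ← LinearMap.toMatrix'_comp, toLin'_apply', hg, LinearMap.toMatrix'_id, det_one, map_zero] at h1
  exact one_ne_zero h1

theorem det_cols_ne [DecidableEq κ] [DecidableEq μ] [DecidableEq ι] (ε : ι ≃ κ ⊕ μ)
    {Q : Matrix μ ι k[X]} {U : Matrix ι μ k[X]} (hb : (Q * U).det ≠ 0) {τ : κ → ι → k[X]}
    (hQT : Q * (Matrix.of τ)ᵀ = 0) (hi : LinearIndependent k[X] τ) :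
    ((fromCols (Matrix.of τ)ᵀ U).submatrix ε.symm id).det ≠ 0 := fun h => by
  obtain ⟨v, hv, h1⟩ := exists_mulVec_eq_zero_iff.2 h
  have h2 : fromCols (Matrix.of τ)ᵀ U *ᵥ v = 0 := funext fun i => by
    simpa [mulVec] using congrFun h1 (ε i)
  rw [fromCols_mulVec] at h2
  have h3 := congrArg (Q *ᵥ ·) h2
  simp only [mulVec_add, mulVec_mulVec, hQT, zero_mulVec, zero_add, mulVec_zero] at h3
  have h4 := eq_zero_of_mulVec_eq_zero hb h3
  rw [h4, mulVec_zero, add_zero] at h2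
  have h5 := Fintype.linearIndependent_iff.1 hi (v ∘ .inl) (funext fun i => by
    simpa [mulVec, dotProduct, mul_comm] using congrFun h2 i)
  exact hv (funext fun i => i.rec h5 (congrFun h4))

theorem det_key [DecidableEq κ] [DecidableEq μ] [DecidableEq ι] (ε : κ ⊕ μ ≃ ι)
    {Q : Matrix μ ι k[X]} (U : Matrix ι μ k[X]) {T : Matrix ι κ k[X]} (hQT : Q * T = 0)
    (Y : Matrix κ ι k[X]) : ((fromRows Y Q).submatrix id ε).det *
      ((fromCols T U).submatrix ε id).det = (Y * T).det * (Q * U).det := by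
  rw [← det_mul, submatrix_mul_equiv, submatrix_id_id, fromRows_mul_fromCols, hQT,
    det_fromBlocks_zero₂₁]

theorem exists_rows [DecidableEq κ] [DecidableEq μ] (ε : κ ⊕ μ ≃ ι) {Q : Matrix μ ι k[X]}
    {α : μ → ℤ} {d : ι → ℤ} (hQ : DM α d Q) {B : ℤ} (hB : ∀ v, d v ≤ B) (p : Option k)
    (hs : Function.Surjective (evM α d p Q).mulVecLin) :
    ∃ Y : Matrix κ ι k[X], DM (fun _ => B) d Y ∧
      DL (∑ _i : κ, B + ∑ i, α i - ∑ v, d v) ((fromRows Y Q).submatrix id ε).det ∧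
      ev (∑ _i : κ, B + ∑ i, α i - ∑ v, d v) p ((fromRows Y Q).submatrix id ε).det ≠ 0 := by
  obtain ⟨Y0, h1⟩ := exists_compl ε hs
  choose q h2 h3 using fun v => exists_ev_eq_one (k := k) (sub_nonneg.2 (hB v)) p
  have h4 : DM (fun _ => B) d (Matrix.of fun i v => Y0 i v • q v) := fun i v => (h2 v).smul _
  have h5 := ev_det' ((fromRows (Matrix.of fun i v => Y0 i v • q v) Q).submatrix id ε)
    (Sum.elim (fun _ => B) α) (fun j => d (ε j)) fun i j => i.rec (fun i => h4 i _) fun i => hQ i _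
  rw [Fintype.sum_sumElim, ε.sum_comp d] at h5
  refine ⟨_, h4, h5.1, ?_⟩
  rw [h5.2]
  convert h1 using 2
  ext (i | i) j
  · simp [evM, h3]
  · rfl

theorem arith {n₁ n₂ n₃ n₄ : ℕ} {s a d l : ℤ} (h6 : s + a - d ≤ n₁) (h10 : (n₃ : ℤ) ≤ s - -l - 1)
    (h11 : n₁ + n₂ = n₃ + n₄) (h1 : n₄ ≤ n₂) : a + 1 ≤ d + l := by omega

/-- **the degree of a quotient** -/
theorem deg_le_of_ker [IsAlgClosed k] {Q : Matrix μ ι k[X]} {α : μ → ℤ} {d : ι → ℤ} (hQ : DM α d Q)
    (hs : ∀ p, Function.Surjective (evM α d p Q).mulVecLin) {τ : κ → ι → k[X]} {l : κ → ℤ}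
    (hτ : ∀ i v, DL (l i + d v) (τ i v)) (h0 : ∀ i, Q.mulVec (τ i) = 0)
    (hc : Fintype.card κ + Fintype.card μ = Fintype.card ι) (hi : LinearIndependent k[X] τ)
    {x : κ → k} (hx : x ≠ 0) (hx' : ∀ v, ∑ i, ev (l i + d v) none (τ i v) * x i = 0) :
    ∑ i, α i + 1 ≤ ∑ v, d v + ∑ i, l i := by
  classical
  obtain ⟨ε⟩ : Nonempty (κ ⊕ μ ≃ ι) := Fintype.card_eq.1 (by rw [Fintype.card_sum, hc])
  obtain ⟨B, hB⟩ := exists_bound d
  have hT : DM d (fun i => -l i) (Matrix.of τ)ᵀ := fun v i => by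
    rw [sub_neg_eq_add, add_comm]
    exact hτ i v
  have hQT : Q * (Matrix.of τ)ᵀ = 0 := by
    ext1 i j
    exact congrFun (h0 j) i
  obtain ⟨U, hb⟩ := exists_right (hs (some 0))
  have ha := det_cols_ne ε.symm hb hQT hi
  rw [Equiv.symm_symm] at ha
  have key := det_key ε U hQT
  have h1 := natDegree_le_of ha hb fun z => by
    obtain ⟨Y, -, -, h1⟩ := exists_rows ε hQ hB (some z) (hs _)
    exact ⟨_, by rwa [ev_some] at h1, _, (key Y).trans (mul_comm _ _)⟩
  obtain ⟨Y, h2, h3, h4⟩ := exists_rows ε hQ hB none (hs _)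
  have h5 : ((fromRows Y Q).submatrix id ε).det ≠ 0 := fun h => h4 (by rw [h, map_zero])
  have h6 : ∑ _i : κ, (B : ℤ) + ∑ i, α i - ∑ v, d v ≤
      ((fromRows Y Q).submatrix id ε).det.natDegree :=
    not_lt.1 fun h => h4 ((DL_natDegree _).ev_none_eq_zero h)
  have h7 : (Y * (Matrix.of τ)ᵀ).det ≠ 0 := left_ne_zero_of_mul ((key Y).symm.trans_ne (mul_ne_zero h5 ha))
  obtain ⟨h8, h9⟩ := ev_det' (Y * (Matrix.of τ)ᵀ) _ _ (evM_mul h2 hT).1
  have h10 := (h8.pred (by
    rw [h9, (evM_mul h2 hT).2, ← exists_mulVec_eq_zero_iff]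
    refine ⟨x, hx, ?_⟩
    rw [← mulVec_mulVec, show evM d (fun i => -l i) none (Matrix.of τ)ᵀ *ᵥ x = 0 from
      funext fun v => by simpa [evM, mulVec, dotProduct, add_comm] using hx' v,
      mulVec_zero])).natDegree_le h7
  have h11 := congrArg natDegree (key Y)
  rw [natDegree_mul h5 ha, natDegree_mul h7 hb] at h11
  rw [Finset.sum_neg_distrib] at h10
  exact arith h6 h10 h11 h1

/-- the degree of the range of a polynomial matrix -/
theorem deg_le_of_split [IsAlgClosed k] {A : Type*} {M : Matrix A ι k[X]} {e : A → ℤ} {d : ι → ℤ}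
    (hM : DM e d M) {c : ℕ} (S : Split e (Rg M e d) c) {τ : κ → ι → k[X]} {l : κ → ℤ}
    (hτ : ∀ i v, DL (l i + d v) (τ i v)) (h0 : ∀ i, M.mulVec (τ i) = 0)
    (hc : Fintype.card κ + c = Fintype.card ι) (hi : LinearIndependent k[X] τ)
    {x : κ → k} (hx : x ≠ 0) (hx' : ∀ v, ∑ i, ev (l i + d v) none (τ i v) * x i = 0) :
    ∑ i, S.α i + 1 ≤ ∑ v, d v + ∑ i, l i := by
  classical
  have h1 : ∀ v p, evv (tw e (-d v)) p (fun a => M a v) = fun a => evM e d p M a v := fun v p =>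
    funext fun a => by simp only [evv_apply, tw_apply, evM, neg_add_eq_sub]
  choose q hq h2 using fun v => S.gen (-d v) (fun a => M a v) (mem_Sec.2
    ⟨fun a => by rw [tw_apply, neg_add_eq_sub]; exact hM a v, fun p => by
      rw [h1]
      exact mem_Rg.2 ⟨Pi.single v 1, by rw [mulVec_single_one]; rfl⟩⟩)
  have h3 : ∀ p (u : ι → k), evM e d p M *ᵥ u = ∑ i,
      (evM S.α d p (Matrix.of q)ᵀ *ᵥ u) i • evv (tw e (-S.α i)) p (S.m i) := fun p u => by
    have h3 : ∀ v a, evM e d p M a v =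
        ∑ i, ev (S.α i - d v) p (q v i) * evv (tw e (-S.α i)) p (S.m i) a := fun v a => by
      rw [← congrFun (h1 v p) a, h2, map_sum, Finset.sum_apply]
      exact Finset.sum_congr rfl fun i _ => by
        rw [(evv_term (S.deg i) (hq v i)).2, neg_add_eq_sub]
        rfl
    funext a
    simp only [mulVec, dotProduct, h3, Finset.sum_apply, Pi.smul_apply, smul_eq_mul,
      Finset.sum_mul]
    rw [Finset.sum_comm]
    exact Finset.sum_congr rfl fun i _ => Finset.sum_congr rfl fun v _ => mul_right_comm _ _ _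
  refine deg_le_of_ker (Q := (Matrix.of q)ᵀ) (fun i v => neg_add_eq_sub (d v) _ ▸ hq v i)
    (fun p w => ?_) hτ (fun j => funext (S.eq_zero_of_sum ?_)) (by simpa using hc) hi hx hx'
  · obtain ⟨u, hu⟩ := mem_Rg.1 (S.sp p ▸ Submodule.sum_mem _ fun i _ => Submodule.smul_mem _ (w i)
      (Submodule.subset_span ⟨i, rfl⟩) : ∑ i, w i • evv (tw e (-S.α i)) p (S.m i) ∈ Rg M e d p)
    exact ⟨u, funext (Fintype.linearIndependent_iffₛ.1 (S.li p) _ _ ((h3 p u).symm.trans hu))⟩
  · rw [← h0 j]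
    funext a
    simp only [mulVec, dotProduct, fun v => congrFun (h2 v) a, Finset.sum_apply, Pi.smul_apply,
      smul_eq_mul, Finset.sum_mul]
    rw [Finset.sum_comm]
    exact Finset.sum_congr rfl fun v _ => Finset.sum_congr rfl fun i _ => mul_right_comm _ _ _

end Crest.Agent.X262.EndsRk
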